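import Vale.Agent.P218UA.Defs

/-! Team P218U: the interfaces between the blocks (definitions of propositions only). Each block
proves one proposition of this file, using earlier ones as hypotheses. -/

open MeasureTheory Set Filter Topology Metric
open scoped ENNReal NNReal RealInnerProductSpace ContDiff

namespace Vale.Agent.P218UA

open Vale.Agent.P218 (WeakTendsto)
open Vale.Agent.P218.H63 (lap hessSq)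

/-! ### F1: calculus on surfaces and flows -/

/-- [F1a] static and time-dependent calculus -/
structure Calc : Prop where
  locFin : ∀ w, IsSurf w → IsLocallyFiniteMeasure (ar w)
  slice : ∀ w I, IsFlow w I → ∀ t ∈ I, IsSurf (w t)
  firstVar : ∀ w, IsSurf w → ∀ X : E3 → E3, ContDiff ℝ 1 X → HasCompactSupport X →
    ∫ x, trT (gradient w x) (fderiv ℝ X x) ∂(ar w) = ∫ x, lap w x * ⟪X x, gradient w x⟫ ∂(ar w)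
  ddt : ∀ w I, IsFlow w I → ∀ J, IsOpen J → J ⊆ I → ∀ f : ℝ → E3 → ℝ,
    ContDiffOn ℝ 1 (fun p : ℝ × E3 => f p.1 p.2) (J ×ˢ univ) → ∀ K, IsCompact K →
    (∀ t ∈ J, ∀ x, x ∉ K → f t x = 0) → ∀ t ∈ J,
    HasDerivAt (fun s => ∫ x, f s x ∂(ar (w s)))
      (∫ x, (deriv (fun s => f s x) t - lap (w t) x * ⟪gradient (f t) x, gradient (w t) x⟫
        - lap (w t) x ^ 2 * f t x) ∂(ar (w t))) t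
  green : ∀ w I, IsFlow w I → ∀ J, IsOpen J → J ⊆ I → ∀ ψ f : ℝ → E3 → ℝ,
    ContDiffOn ℝ 2 (fun p : ℝ × E3 => ψ p.1 p.2) (J ×ˢ univ) →
    ContDiffOn ℝ 2 (fun p : ℝ × E3 => f p.1 p.2) (J ×ˢ univ) → ∀ K, IsCompact K →
    (∀ t ∈ J, ∀ x, x ∉ K → ψ t x = 0) → ∀ t ∈ J,
    HasDerivAt (fun s => ∫ x, ψ s x * f s x ∂(ar (w s)))
      (∫ x, (ψ t x * heat w f t x + f t x * adj w ψ t x) ∂(ar (w t))) t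
  param : ∀ w I, IsFlow w I → ∀ (n : ℕ) (P : Type) [NormedAddCommGroup P] [NormedSpace ℝ P]
    [FiniteDimensional ℝ P] (τ : P → ℝ) (f : P → E3 → ℝ) (U : Set P), IsOpen U →
    ContDiffOn ℝ n τ U → MapsTo τ U I →
    ContDiffOn ℝ n (fun p : P × E3 => f p.1 p.2) (U ×ˢ univ) → ∀ K, IsCompact K →
    (∀ a ∈ U, ∀ x, x ∉ K → f a x = 0) →
    ContDiffOn ℝ n (fun a => ∫ x, f a x ∂(ar (w (τ a)))) U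
  stm_meas : ∀ w I, IsFlow w I → ∀ f : ℝ × E3 → ℝ≥0∞, Measurable f →
    AEMeasurable (fun t => ∫⁻ x, f (t, x) ∂(ar (w t))) (volume.restrict I)
  stm_lint : ∀ w I, IsFlow w I → ∀ f : ℝ × E3 → ℝ≥0∞, Measurable f →
    ∫⁻ p, f p ∂(stm w I) = ∫⁻ t in I, ∫⁻ x, f (t, x) ∂(ar (w t))
  stm_int : ∀ w I, IsFlow w I → ∀ f : ℝ × E3 → ℝ, Integrable f (stm w I) →
    IntegrableOn (fun t => ∫ x, f (t, x) ∂(ar (w t))) I ∧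
      ∫ p, f p ∂(stm w I) = ∫ t in I, ∫ x, f (t, x) ∂(ar (w t))
  stm_fin : ∀ w I, IsFlow w I → ∀ K, IsCompact K → K ⊆ I ×ˢ univ → stm w I K < ⊤
  stm_ae : ∀ w I, IsFlow w I → ∀ᵐ p ∂(stm w I), p.1 ∈ I ∧ w p.1 p.2 = 0

/-- [F1b] Huisken's monotonicity formula and its first consequences -/
structure Mono : Prop where
  mono : ∀ w I A, IsARFlow w I A → ∀ (x₀ : E3) (t₀ t₁ t₂ : ℝ), t₁ ∈ I → t₂ ∈ I → t₁ ≤ t₂ →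
    t₂ < t₀ → ENNReal.ofReal (gd (ar (w t₂)) x₀ √(t₀ - t₂)) + ∫⁻ t in Ioo t₁ t₂, dis w x₀ t₀ t
      ≤ ENNReal.ofReal (gd (ar (w t₁)) x₀ √(t₀ - t₁))
  /-- weighted lower density bound at the points of the flow -/
  dens : ∀ w I, IsFlow w I → ∀ t₀ ∈ I, ∀ x₀, w t₀ x₀ = 0 → ∀ f : ℝ × E3 → ℝ,
    ContinuousAt f (t₀, x₀) → Measurable f → (∀ p, 0 ≤ f p) → ∀ c < f (t₀, x₀),
    ∀ᶠ r in 𝓝[>] (0 : ℝ), ENNReal.ofReal c ≤ ∫⁻ y, ENNReal.ofReal (f (t₀ - r ^ 2, y)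
      * Real.exp (-‖y - x₀‖ ^ 2 / (4 * r ^ 2)) / (4 * Real.pi * r ^ 2)) ∂(ar (w (t₀ - r ^ 2)))
  clear : ∀ w I A, IsARFlow w I A → ∀ t₀ ∈ I, ∀ x₀, w t₀ x₀ = 0 → ∀ t₁ ∈ I, t₁ < t₀ →
    1 ≤ gd (ar (w t₁)) x₀ √(t₀ - t₁)
  /-- Gaussian tails under an area ratio bound -/
  tail : ∃ C : ℝ, ∀ (μ : Measure E3) (A : ℝ), 0 ≤ A → AR μ A → ∀ (x : E3) (r : ℝ), 0 < r →
    Integrable (fun y => Real.exp (-‖y - x‖ ^ 2 / (8 * r ^ 2))) μ ∧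
      ∫ y, Real.exp (-‖y - x‖ ^ 2 / (8 * r ^ 2)) ∂μ ≤ C * A * r ^ 2
  /-- local bound for the space-time integral of `H²` -/
  hsq : ∃ C : ℝ, ∀ w I A, IsARFlow w I A → ∀ (z : E3) (r t₁ t₂ : ℝ), 0 < r → t₁ ∈ I → t₂ ∈ I →
    t₁ ≤ t₂ → ∫ t in t₁..t₂, ∫ x in ball z r, lap (w t) x ^ 2 ∂(ar (w t))
      ≤ C * A * (r ^ 2 + (t₂ - t₁))
  /-- area ratio bound for compact flows -/
  ratio : ∀ w I, IsFlow w I → ∀ a ∈ I, (∀ b ∈ I, IsCompact {p : ℝ × E3 | p.1 ∈ Icc a b ∧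
    w p.1 p.2 = 0}) → ∃ A, IsARFlow w (I ∩ Ioi a) A

/-! ### WHITE, GRAPH, SHEET, HD -/

/-- [WHITE] local regularity, with small curvature -/
def WhiteStmt : Prop :=
  ∀ A η : ℝ, 0 < η → ∃ ε > 0, ∀ w I, IsARFlow w I A → ∀ (x₀ : E3) (t₀ ρ : ℝ), 0 < ρ →
    Icc (t₀ - 2 * ρ ^ 2) t₀ ⊆ I →
    (∀ t ∈ Icc (t₀ - ρ ^ 2) t₀, ∀ x ∈ closedBall x₀ ρ, w t x = 0 →
      gd (ar (w (t - ρ ^ 2))) x ρ ≤ 1 + ε) →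
    w t₀ x₀ = 0 → ‖hs (w t₀) x₀‖ ≤ η / ρ

/-- [GRAPH] graphs: area formula, geometry, and the graphical flow equation -/
structure Graph : Prop where
  area : ∀ w, IsSurf w → ∀ Q p R h u, IsGraph {x | w x = 0} Q p R h u →
    ContDiffOn ℝ 1 u (ball 0 R) → ∀ f : E3 → ℝ≥0∞, Measurable f →
    ∫⁻ x in {x | ∃ ξ s, ‖ξ‖ < R ∧ |s| < h ∧ x = pt Q p ξ s}, f x ∂(ar w)
      = ∫⁻ ξ in ball (0 : E2) R,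
        f (pt Q p ξ (u ξ)) * ENNReal.ofReal √(1 + ‖gradient u ξ‖ ^ 2)
  /-- normal, mean curvature, norm of the second fundamental form -/
  geom : ∀ w, IsSurf w → ∀ Q p (u : E2 → ℝ) (ξ : E2), ContDiffAt ℝ 2 u ξ →
    (∀ᶠ ζ in 𝓝 ξ, w (pt Q p ζ (u ζ)) = 0) → ∃ σ : ℝ, (σ = 1 ∨ σ = -1) ∧
      gradient w (pt Q p ξ (u ξ)) = (σ / √(1 + ‖gradient u ξ‖ ^ 2)) •
        Q !₂[-gradient u ξ 0, -gradient u ξ 1, 1] ∧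
      lap w (pt Q p ξ (u ξ)) = -σ * gmc u ξ / √(1 + ‖gradient u ξ‖ ^ 2) ∧
      ∀ a b : E2, ⟪hs w (pt Q p ξ (u ξ)) (Q !₂[a 0, a 1, ⟪gradient u ξ, a⟫]),
          Q !₂[b 0, b 1, ⟪gradient u ξ, b⟫]⟫
        = -σ * ⟪fderiv ℝ (gradient u) ξ a, b⟫ / √(1 + ‖gradient u ξ‖ ^ 2)
  eqn : ∀ w I, IsFlow w I → ∀ Q p (u : ℝ → E2 → ℝ), ∀ t ∈ I, ∀ ξ : E2,
    ContDiffAt ℝ 2 (fun q : ℝ × E2 => u q.1 q.2) (t, ξ) →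
    (∀ᶠ q : ℝ × E2 in 𝓝 (t, ξ), w q.1 (pt Q p q.2 (u q.1 q.2)) = 0) →
    deriv (fun s => u s ξ) t = gmc (u t) ξ
  /-- a local chart of the flow over the tangent plane -/
  chart : ∀ w I, IsFlow w I → ∀ t₀ ∈ I, ∀ x₀, w t₀ x₀ = 0 → ∀ η > 0,
    ∃ (Q : E3 ≃ₗᵢ[ℝ] E3) (R h τ : ℝ) (u : ℝ → E2 → ℝ), 0 < R ∧ 0 < h ∧ 0 < τ ∧ R < η ∧ h < η ∧
      Ioo (t₀ - τ) (t₀ + τ) ⊆ I ∧
      ContDiffOn ℝ ∞ (fun q : ℝ × E2 => u q.1 q.2) (Ioo (t₀ - τ) (t₀ + τ) ×ˢ ball 0 R) ∧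
      ∀ t ∈ Ioo (t₀ - τ) (t₀ + τ), IsGraph {x | w t x = 0} Q x₀ R h (u t) ∧
        ∀ ξ ∈ ball (0 : E2) R, ‖gradient (u t) ξ‖ ≤ η

/-- the conclusion of the graphical regularity theorem on the time interval `T` -/
def SheetOn (w : ℝ → E3 → ℝ) (T : Set ℝ) (Q : E3 ≃ₗᵢ[ℝ] E3) (p : E3) (R ρ η : ℝ) : Prop :=
  (∀ t ∈ T, ∀ (ξ : E2) (s : ℝ), ‖ξ‖ < R → |s| < 5 * ρ → w t (pt Q p ξ s) ≠ 0) ∨
    ∃ u : ℝ → E2 → ℝ, ∀ t ∈ T, IsGraph {x | w t x = 0} Q p R (5 * ρ) (u t) ∧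
      ∀ ξ : E2, ‖ξ‖ < R → ContDiffAt ℝ ∞ (fun q : ℝ × E2 => u q.1 q.2) (t, ξ) ∧
        (∀ᶠ q : ℝ × E2 in 𝓝 (t, ξ), w q.1 (pt Q p q.2 (u q.1 q.2)) = 0) ∧
        |u t ξ| ≤ η * ρ ∧ ‖gradient (u t) ξ‖ ≤ η ∧ ‖fderiv ℝ (gradient (u t)) ξ‖ ≤ η / ρ

/-- [SHEET] a flow whose Gaussian density ratios are at most those of one plane is a graph -/
def SheetStmt : Prop :=
  ∀ A η : ℝ, 0 < η → ∃ ε > 0, ∀ w I, IsARFlow w I A → ∀ (Q : E3 ≃ₗᵢ[ℝ] E3) (p : E3)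
    (R ρ t₀ : ℝ), 0 < R → 0 < ρ → Icc (t₀ - ρ ^ 2) t₀ ⊆ I →
    (∀ (ξ : E2) (s r : ℝ), ‖ξ‖ ≤ R + 10 * ρ → |s| ≤ 10 * ρ → r ∈ Icc (ρ / 2) ρ →
      gd (ar (w (t₀ - ρ ^ 2))) (pt Q p ξ s) r ≤ Real.exp (-s ^ 2 / (4 * r ^ 2)) + ε) →
    SheetOn w (Icc (t₀ - ρ ^ 2 / 4) t₀) Q p R ρ η

/-- [HD] interior estimates for all derivatives of solutions of the graphical flow -/
def HDStmt : Prop :=
  ∀ (K : ℝ) (k : ℕ), 2 ≤ k → ∃ C : ℝ, ∀ (u : ℝ → E2 → ℝ) (t₀ ρ : ℝ) (ξ₀ : E2), 0 < ρ →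
    (∀ t ∈ Icc (t₀ - ρ ^ 2) t₀, ∀ ξ ∈ closedBall ξ₀ ρ,
      ContDiffAt ℝ ∞ (fun q : ℝ × E2 => u q.1 q.2) (t, ξ) ∧
      deriv (fun s => u s ξ) t = gmc (u t) ξ ∧ ‖gradient (u t) ξ‖ ≤ 1 ∧
      ‖fderiv ℝ (gradient (u t)) ξ‖ ≤ K / ρ) →
    ‖iteratedFDeriv ℝ k (u t₀) ξ₀‖ ≤ C / ρ ^ (k - 1)

/-- [SDM] signed distance functions from local defining functions -/
def SDMStmt : Prop :=
  ∀ (I : Set ℝ), IsOpen I → ∀ σ : ℝ × E3 → SignType,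
    (∀ p ∈ I ×ˢ (univ : Set E3), ∃ (f : ℝ × E3 → ℝ) (U : Set (ℝ × E3)), IsOpen U ∧ p ∈ U ∧
      ContDiffOn ℝ ∞ f U ∧ (∀ q ∈ U, SignType.sign (f q) = σ q) ∧
      (f p = 0 → fderiv ℝ (fun x => f (p.1, x)) p.2 ≠ 0)) →
    ∃ w : ℝ → E3 → ℝ, ContDiffOn ℝ ∞ (fun p : ℝ × E3 => w p.1 p.2) (I ×ˢ univ) ∧
      (∀ t ∈ I, ∀ x, SignType.sign (w t x) = σ (t, x)) ∧
      ∀ t ∈ I, ∀ x, w t x = 0 → ∀ᶠ p : ℝ × E3 in 𝓝 (t, x), ‖gradient (w p.1) p.2‖ = 1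

/-! ### LGB -/

/-- [LGB-static] -/
def LGBStaticStmt : Prop :=
  ∀ A : ℝ, ∃ C : ℝ, ∀ w, IsSurf w → IsCompact {x | w x = 0} → IsPreconnected {x | w x = 0} →
    AR (ar w) A → (∃ n : ℤ, ∫ x, (lap w x ^ 2 - hessSq w x) / 2 ∂(ar w) = 2 * Real.pi * n) ∧
    LGB w (C * (1 + |∫ x, (lap w x ^ 2 - hessSq w x) / 2 ∂(ar w)|))

/-- [LGB-flow] -/
def LGBFlowStmt : Prop :=
  ∀ w I A, IsARFlow w I A →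
    (∀ a ∈ I, ∀ b ∈ I, IsCompact {p : ℝ × E3 | p.1 ∈ Icc a b ∧ w p.1 p.2 = 0}) →
    (∀ t ∈ I, IsPreconnected {x | w t x = 0}) → ∃ C, IsGood w I A C

/-! ### FL, PACK, CELL -/

/-- [FL] small energy off one small ball implies closeness to parallel planes -/
def FLStmt : Prop :=
  ∀ A L δ : ℝ, 0 < δ → ∃ ε > 0, ∃ κ > 0, ∃ L' > 0, ∀ w, IsSurf w → AR (ar w) A →
    ∀ (z z' : E3) (r : ℝ), 0 < r →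
    ∫ x in ball z (L' * r) \ ball z' (κ * r), hessSq w x ∂(ar w) ≤ ε → NearPl (ar w) z r L δ

/-- [PACK] the number of lattice balls whose mass is not concentrated in one small ball -/
def PackStmt : Prop :=
  ∀ ε κ L' : ℝ, 0 < ε → 0 < κ → 0 < L' → ∃ N : ℝ≥0, ∀ (α : Measure E3)
    (F : Finset (ℤ × (Fin 3 → ℤ))) (B : Set E3), MeasurableSet B →
    (∀ Q ∈ F, ball (zQ Q) (L' * rQ Q) ⊆ B) →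
    (∀ Q ∈ F, ∀ z', ENNReal.ofReal ε < α (ball (zQ Q) (L' * rQ Q) \ ball z' (κ * rQ Q))) →
    (F.card : ℝ≥0∞) ≤ N * α B

/-- [CELL] the loud lattice points in a cell of size `ρ` -/
structure Cell : Prop where
  smooth : ∀ w I A, IsARFlow w I A → ∀ (z : E3) (r t : ℝ), 0 < r → Icc (t - r ^ 2) t ⊆ I →
    ContDiffAt ℝ ∞ (bbar w z r) t
  crude : ∀ A : ℝ, ∃ C : ℝ, ∀ w I, IsARFlow w I A → ∀ (z : E3) (r t : ℝ), 0 < r →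
    Icc (t - r ^ 2) t ⊆ I → r ^ 2 * |deriv (bbar w z r) t| ≤ C
  count : ∀ A C δ : ℝ, 0 < δ → ∃ r₀ > 0, ∃ N : ℝ≥0, ∀ w I, IsGood w I A C →
    ∀ (p : E3) (ρ t₁ t₂ : ℝ), 0 < ρ → t₂ ≤ t₁ + ρ ^ 2 → Icc (t₁ - ρ ^ 2) t₂ ⊆ I →
    ∀ F : Finset (ℤ × (Fin 3 → ℤ)), (∀ Q ∈ F, zQ Q ∈ ball p (2 * ρ) ∧ rQ Q ≤ r₀ * ρ) →
    ∑ Q ∈ F, volume {t ∈ Icc t₁ t₂ | δ ≤ bbar w (zQ Q) (rQ Q) t} ≤ N * ENNReal.ofReal (ρ ^ 2)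
  small : ∀ A C δ Λ ε : ℝ, 0 < δ → 0 ≤ Λ → 0 < ε → ∃ r₀ > 0, ∃ ε' > 0, ∀ w I, IsGood w I A C →
    ∀ (p : E3) (ρ t₁ t₂ : ℝ), 0 < ρ → t₂ ≤ t₁ + ρ ^ 2 → Icc (t₁ - ρ ^ 2) t₂ ⊆ I →
    ∫⁻ t in Icc (t₁ - ρ ^ 2) t₂, ∫⁻ x in ball p (7 * ρ),
      ENNReal.ofReal (max (|lap (w t) x| - Λ / ρ) 0 ^ 2) ∂(ar (w t))
        ≤ ENNReal.ofReal (ε' * ρ ^ 2) →
    ∀ F : Finset (ℤ × (Fin 3 → ℤ)), (∀ Q ∈ F, zQ Q ∈ ball p (2 * ρ) ∧ rQ Q ≤ r₀ * ρ) →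
    ∑ Q ∈ F, ∫⁻ t in {t ∈ Icc t₁ t₂ | δ ≤ bbar w (zQ Q) (rQ Q) t},
      ENNReal.ofReal (rQ Q ^ 2 * |deriv (bbar w (zQ Q) (rQ Q)) t|) ≤ ENNReal.ofReal (ε * ρ ^ 2)

end Vale.Agent.P218UA
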