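import Vale.Agent.P218.H63.Defs

/-! Smooth mean curvature flows of surfaces in three-space given by signed distance functions:
definitions shared by all blocks of the team P218U. -/

open MeasureTheory Set Filter Topology Metric
open scoped ENNReal NNReal RealInnerProductSpace ContDiff

namespace Vale.Agent.P218UA

open Vale.Agent.P218 (WeakTendsto)
open Vale.Agent.P218.H63 (lap hessSq)

/-- three-space -/
abbrev E3 := EuclideanSpace ℝ (Fin 3)

/-- the plane -/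
abbrev E2 := EuclideanSpace ℝ (Fin 2)

/-- the area measure of `{w = 0}`, normalised so that planes have the Lebesgue measure -/
noncomputable def ar (w : E3 → ℝ) : Measure E3 := (μHE[2] : Measure E3).restrict {x | w x = 0}

/-- `{w = 0}` is a smooth properly embedded surface, near which `w` is a signed distance -/
structure IsSurf (w : E3 → ℝ) : Prop where
  smooth : ContDiff ℝ ∞ w
  eik : ∀ x, w x = 0 → ∀ᶠ y in 𝓝 x, ‖gradient w y‖ = 1

/-- a smooth properly embedded self-shrinker (possibly empty) -/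
structure IsShr (w : E3 → ℝ) : Prop extends IsSurf w where
  eqn : ∀ x, w x = 0 → lap w x = ⟪x, gradient w x⟫ / 2

/-- `M_t = {w t = 0}`, `t ∈ I`, is a smooth properly embedded mean curvature flow. The unit normal
is `ν = ∇w`, the second fundamental form is `D²w`, `H = Δw`, the mean curvature vector is `-H ν`. -/
structure IsFlow (w : ℝ → E3 → ℝ) (I : Set ℝ) : Prop where
  isOpen : IsOpen I
  conn : I.OrdConnected
  smooth : ContDiffOn ℝ ∞ (fun p : ℝ × E3 => w p.1 p.2) (I ×ˢ univ)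
  eik : ∀ t ∈ I, ∀ x, w t x = 0 → ∀ᶠ p : ℝ × E3 in 𝓝 (t, x), ‖gradient (w p.1) p.2‖ = 1
  eqn : ∀ t ∈ I, ∀ x, w t x = 0 → deriv (fun s => w s x) t = lap (w t) x

/-- the Hessian -/
noncomputable def hs (f : E3 → ℝ) (x : E3) : E3 →L[ℝ] E3 := fderiv ℝ (gradient f) x

/-- the trace of `B` on the plane orthogonal to the unit vector `n` -/
noncomputable def trT (n : E3) (B : E3 →L[ℝ] E3) : ℝ :=
  LinearMap.trace ℝ E3 B.toLinearMap - ⟪B n, n⟫

/-- the part of `v` orthogonal to the unit vector `n` -/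
noncomputable def gT (n v : E3) : E3 := v - ⟪n, v⟫ • n

/-- `(d/dt - Δ_M) f` for a function `f` on space-time -/
noncomputable def heat (w f : ℝ → E3 → ℝ) (t : ℝ) (x : E3) : ℝ :=
  deriv (fun s => f s x) t - trT (gradient (w t) x) (hs (f t) x)

/-- `(d/dt + Δ_M - H²) f`, so that `d/dt ∫ ψ f = ∫ ψ heat f + f adj ψ` -/
noncomputable def adj (w f : ℝ → E3 → ℝ) (t : ℝ) (x : E3) : ℝ :=
  deriv (fun s => f s x) t + trT (gradient (w t) x) (hs (f t) x)
    - 2 * lap (w t) x * ⟪gradient (f t) x, gradient (w t) x⟫ - lap (w t) x ^ 2 * f t x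

/-- the space-time measure `dμ_t dt` on `I × ℝ³` -/
noncomputable def stm (w : ℝ → E3 → ℝ) (I : Set ℝ) : Measure (ℝ × E3) :=
  (volume.restrict I).bind fun t => (ar (w t)).map (Prod.mk t)

/-- area ratio bound -/
def AR (μ : Measure E3) (A : ℝ) : Prop :=
  ∀ (x : E3) (r : ℝ), 0 < r → μ (closedBall x r) ≤ ENNReal.ofReal (A * r ^ 2)

/-- local Gauss-Bonnet estimate -/
def LGB (w : E3 → ℝ) (C : ℝ) : Prop :=
  ∀ (z : E3) (r : ℝ), 0 < r → ∫ x in ball z r, hessSq w x ∂(ar w)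
    ≤ C * (1 + ∫ x in ball z (2 * r), lap w x ^ 2 ∂(ar w))

/-- a flow with bounded area ratios -/
structure IsARFlow (w : ℝ → E3 → ℝ) (I : Set ℝ) (A : ℝ) : Prop extends IsFlow w I where
  one_le : 1 ≤ A
  ratio : ∀ t ∈ I, AR (ar (w t)) A

/-- a flow with bounded area ratios and the local Gauss-Bonnet estimate -/
structure IsGood (w : ℝ → E3 → ℝ) (I : Set ℝ) (A C : ℝ) : Prop extends IsARFlow w I A where
  one_le' : 1 ≤ C
  lgb : ∀ t ∈ I, LGB (w t) C

/-- the Gaussian density ratio of a measure, centre `x`, scale `r` -/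
noncomputable def gd (μ : Measure E3) (x : E3) (r : ℝ) : ℝ :=
  (∫ y, Real.exp (-‖y - x‖ ^ 2 / (4 * r ^ 2)) ∂μ) / (4 * Real.pi * r ^ 2)

/-- the dissipation in Huisken's monotonicity formula with centre `(x₀, t₀)`, at time `t < t₀` -/
noncomputable def dis (w : ℝ → E3 → ℝ) (x₀ : E3) (t₀ t : ℝ) : ℝ≥0∞ :=
  ∫⁻ y, ENNReal.ofReal ((lap (w t) y - ⟪y - x₀, gradient (w t) y⟫ / (2 * (t₀ - t))) ^ 2
    * Real.exp (-‖y - x₀‖ ^ 2 / (4 * (t₀ - t))) / (4 * Real.pi * (t₀ - t))) ∂(ar (w t))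

/-- the parabolic rescaling by the factor `1 / s` about the space-time origin -/
noncomputable def resc (w : ℝ → E3 → ℝ) (s : ℝ) : ℝ → E3 → ℝ :=
  fun t x => w (s ^ 2 * t) (s • x) / s

/-- the dilation of a two-dimensional measure by the factor `c` -/
noncomputable def scal (ν : Measure E3) (c : ℝ) : Measure E3 :=
  ENNReal.ofReal (c ^ 2) • ν.map fun x => c • x

/-- `ν` is the limit of the time `-1` slices of the rescalings by `1 / s i → ∞` -/
structure TanSeq (w : ℝ → E3 → ℝ) (s : ℕ → ℝ) (ν : Measure E3) : Prop where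
  pos : ∀ i, 0 < s i
  lim : Tendsto s atTop (𝓝 0)
  locFin : IsLocallyFiniteMeasure ν
  weak : WeakTendsto (fun i => ar (resc w (s i) (-1))) ν

/-! ### Graphs -/

/-- the point with horizontal coordinate `ξ` and height `h` in the frame `(p, Q)` -/
noncomputable def pt (Q : E3 ≃ₗᵢ[ℝ] E3) (p : E3) (ξ : E2) (h : ℝ) : E3 :=
  p + Q !₂[ξ 0, ξ 1, h]

/-- in the cylinder of radius `R` and half-height `h`, `M` is the graph of `u` -/
def IsGraph (M : Set E3) (Q : E3 ≃ₗᵢ[ℝ] E3) (p : E3) (R h : ℝ) (u : E2 → ℝ) : Prop :=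
  ∀ ξ : E2, ‖ξ‖ < R → |u ξ| < h ∧ ∀ s : ℝ, |s| < h → (pt Q p ξ s ∈ M ↔ s = u ξ)

/-- the right-hand side `Δu - D²u(Du, Du) / (1 + |Du|²)` of the graphical flow equation -/
noncomputable def gmc (u : E2 → ℝ) (ξ : E2) : ℝ :=
  lap u ξ - ⟪fderiv ℝ (gradient u) ξ (gradient u ξ), gradient u ξ⟫ / (1 + ‖gradient u ξ‖ ^ 2)

/-- smooth convergence, with multiplicity one, of the surfaces `M i` to the surface `S` -/
structure SmoothConv (M : ℕ → Set E3) (S : Set E3) : Prop where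
  away : ∀ p, p ∉ S → ∃ r > 0, ∀ᶠ i in atTop, Disjoint (ball p r) (M i)
  near : ∀ p ∈ S, ∃ (Q : E3 ≃ₗᵢ[ℝ] E3) (R h : ℝ) (u : E2 → ℝ) (v : ℕ → E2 → ℝ), 0 < R ∧ 0 < h ∧
    IsGraph S Q p R h u ∧ ContDiffOn ℝ ∞ u (ball 0 R) ∧
    (∀ᶠ i in atTop, IsGraph (M i) Q p R h (v i) ∧ ContDiffOn ℝ ∞ (v i) (ball 0 R)) ∧
    ∀ k : ℕ, TendstoUniformlyOn (fun i => iteratedFDeriv ℝ k (v i)) (iteratedFDeriv ℝ k u) atTop
      (ball 0 R)

/-! ### Closeness to parallel planes -/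

/-- the kernel `(4/π) (1 - |z|²)₊³`; its integral over a plane at distance `h ≤ 1` from the origin
is `(1 - h²)⁴` -/
noncomputable def kk (z : E3) : ℝ := 4 / Real.pi * max (1 - ‖z‖ ^ 2) 0 ^ 3

/-- the mass ratio with the kernel `kk` -/
noncomputable def mk (μ : Measure E3) (x : E3) (r : ℝ) : ℝ :=
  (∫ y, kk (r⁻¹ • (y - x)) ∂μ) / r ^ 2

/-- a finite sum of parallel planes -/
noncomputable def pl (n : E3) {k : ℕ} (h : Fin k → ℝ) : Measure E3 :=
  ∑ i, (μHE[2] : Measure E3).restrict {z | ⟪z, n⟫ = h i}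

/-- test functions -/
structure IsTest (L : ℝ) (φ : E3 → ℝ) : Prop where
  smooth : ContDiff ℝ 1 φ
  supp : ∀ x, L ≤ ‖x‖ → φ x = 0
  le_one : ∀ x, |φ x| ≤ 1
  deriv_le : ∀ x, ‖fderiv ℝ φ x‖ ≤ 1

/-- at the centre `z` and the scale `r`, `μ` is `δ`-close in the ball of radius `L r` to a finite
sum of parallel planes -/
def NearPl (μ : Measure E3) (z : E3) (r L δ : ℝ) : Prop :=
  ∃ (n : E3) (k : ℕ) (h : Fin k → ℝ), ‖n‖ = 1 ∧ ∀ φ, IsTest L φ →
    |(∫ y, φ (r⁻¹ • (y - z)) ∂μ) / r ^ 2 - ∫ y, φ y ∂(pl n h)| ≤ δ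

/-- the distance to the finite sums of parallel planes -/
noncomputable def beta (μ : Measure E3) (z : E3) (r L : ℝ) : ℝ :=
  sInf {δ | 0 ≤ δ ∧ NearPl μ z r L δ}

/-- at small scales, locally uniformly, `ν` is close to parallel planes -/
def Flat (ν : Measure E3) : Prop :=
  ∀ R L δ : ℝ, 0 < δ → ∃ r₀ > 0, ∀ z : E3, ‖z‖ ≤ R → ∀ r, 0 < r → r < r₀ → NearPl ν z r L δ

/-- the points of higher multiplicity -/
def Zset (ν : Measure E3) : Set E3 := {z | ∀ᶠ r in 𝓝[>] (0 : ℝ), 3 / 2 ≤ mk ν z r}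

/-! ### The separation functional -/

/-- a smooth kernel, positive on `(0, 1)` and zero elsewhere -/
noncomputable def k01 (s : ℝ) : ℝ := expNegInvGlue s * expNegInvGlue (1 - s)

/-- the average of `beta` over the time window `[t - r², t]` -/
noncomputable def bbar (w : ℝ → E3 → ℝ) (z : E3) (r t : ℝ) : ℝ :=
  ∫ s, k01 s * beta (ar (w (t - s * r ^ 2))) z r 10

/-- the flow is quiet at the time `t`, the point `x` and the scale `e^y` -/
def Quiet (w : ℝ → E3 → ℝ) (I : Set ℝ) (δ t : ℝ) (x : E3) (y : ℝ) : Prop :=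
  ∃ (z : E3) (r : ℝ), ‖z - x‖ < r ∧ Real.exp (y + 1) < r ∧ r < Real.exp (y + 3) ∧
    Icc (t - r ^ 2) t ⊆ I ∧ bbar w z r t < δ

/-- the part of `{w = 0}` in the ball `B(x, r)` lies in a Lipschitz graph -/
def Reg (w : E3 → ℝ) (θ : ℝ) (x : E3) (r : ℝ) : Prop :=
  ∃ n : E3, ‖n‖ = 1 ∧ ∀ z ∈ ball x r, ∀ z' ∈ ball x r, w z = 0 → w z' = 0 →
    |⟪z - z', n⟫| ≤ θ * ‖z - z'‖

/-- the average of the mass ratio at the scale `r = e^y` over the time window `[t - σ r², t]` -/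
noncomputable def tbar (w : ℝ → E3 → ℝ) (σ t : ℝ) (x : E3) (y : ℝ) : ℝ :=
  (∫ t' in (t - σ * Real.exp (2 * y))..t, mk (ar (w t')) x (Real.exp y)) / (σ * Real.exp (2 * y))

/-- the levels (logarithmic scales) at which the flow is not a single sheet near `(t, x)` -/
def Om (w : ℝ → E3 → ℝ) (I : Set ℝ) (A σ θ t : ℝ) (x : E3) : Set ℝ :=
  {y | ¬Reg (w t) θ x (Real.exp y)} ∪
    {y | ∃ y', Icc (t - σ * Real.exp (2 * y')) t ⊆ I ∧ 13 / 10 < tbar w σ t x y' ∧
      y' + 10 * (2 * A - tbar w σ t x y') < y}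

/-- the scale of the lattice point `Q = (j, q)` -/
noncomputable def rQ (Q : ℤ × (Fin 3 → ℤ)) : ℝ := Real.exp Q.1

/-- the centre of the lattice point `Q = (j, q)` -/
noncomputable def zQ (Q : ℤ × (Fin 3 → ℤ)) : E3 := rQ Q • !₂[(Q.2 0 : ℝ), Q.2 1, Q.2 2]

/-- the round cylinder of radius `√2` with the axis `ℝ e`, `|e| = 1` -/
def cylS (e : E3) : Set E3 := {x | ‖gT e x‖ ^ 2 = 2}

end Vale.Agent.P218UA
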