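import Vale.Agent.P218UA.Props2
import Vale.Agent.P218ST.Defs

/-! Team P218U: the interface with the main theorem of team P218 (definitions of propositions
only). -/

open MeasureTheory Set Filter Topology Metric
open scoped ENNReal NNReal RealInnerProductSpace ContDiff

namespace Vale.Agent.P218UA

/-- [FORMAT] the ends in the form used by the main theorem -/
def FormatStmt : Prop :=
  ∀ W D, IsShr W → EndStruct {x | W x = 0} D → Vale.Agent.P218GA.HasCylConeEnds {x | W x = 0}

/-- [SHAPE] the outcome of team P218U for a good flow: a smooth tangent flow of multiplicity one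
whose ends are cylindrical or conical -/
def ShapeStmt : Prop :=
  ∀ w a A C, a < 0 → IsGood w (Ioo a 0) A C → ∃ s W, TanSeq w s (ar W) ∧ IsShr W ∧
    Vale.Agent.P218GA.HasCylConeEnds {x | W x = 0}

end Vale.Agent.P218UA
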