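import Vale.Agent.P218UA.Props

/-! Team P218U: the interfaces between the blocks, second part (multiplicity one, tangent flows,
ends). Definitions of propositions only. -/

open MeasureTheory Set Filter Topology Metric
open scoped ENNReal NNReal RealInnerProductSpace ContDiff

namespace Vale.Agent.P218UA

open Vale.Agent.P218 (WeakTendsto)
open Vale.Agent.P218.H63 (lap hessSq IsTubeShrinker)

/-! ### VISC, QS, CORE, WT -/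

/-- the second derivative of `f` at `ξ` in the direction `e` -/
noncomputable def dd (f : E2 → ℝ) (ξ e : E2) : ℝ := fderiv ℝ (fderiv ℝ f) ξ e e

/-- [VISC] a function with barriers from above is a supersolution in the sense of distributions.
The operator is `∂_t - ∑ a k ∂²_{e k}` with `a k ≥ 0`. -/
def ViscStmt : Prop :=
  ∀ (n : ℕ) (e : Fin n → E2) (a : Fin n → ℝ × E2 → ℝ) (η V f : ℝ × E2 → ℝ) (U : Set (ℝ × E2)),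
    IsOpen U → (∀ k, ContDiffOn ℝ 2 (a k) U) → (∀ k, ∀ p ∈ U, 0 ≤ a k p) →
    ContDiff ℝ 2 η → HasCompactSupport η → tsupport η ⊆ U → (∀ p, 0 ≤ η p) →
    Measurable V → Measurable f → (∃ B, ∀ p ∈ U, |V p| ≤ B ∧ |f p| ≤ B) →
    (∃ C h₀ : ℝ, 0 < h₀ ∧ ∀ p ∈ tsupport η, ∀ h, 0 < h → h < h₀ →
      V (p.1 - h, p.2) - V p ≤ C * h ∧
      ∀ k, V (p.1, p.2 + h • e k) + V (p.1, p.2 - h • e k) - 2 * V p ≤ C * h ^ 2) →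
    (∀ p ∈ tsupport η, ∃ P : ℝ × E2 → ℝ, ContDiffAt ℝ 2 P p ∧ P p = V p ∧
      (∀ᶠ q in 𝓝 p, q.1 ≤ p.1 → V q ≤ P q) ∧
      -f p ≤ deriv (fun t => P (t, p.2)) p.1 - ∑ k, a k p * dd (fun ξ => P (p.1, ξ)) p.2 (e k)) →
    ∫ p, V p * (deriv (fun t => η (t, p.2)) p.1
      + ∑ k, dd (fun ξ => a k (p.1, ξ) * η (p.1, ξ)) p.2 (e k)) ≤ ∫ p, η p * f p

/-- [QS] the structure of the flow at quiet points. Put `Y = 20 A - 13`. -/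
def QSStmt : Prop :=
  ∀ A : ℝ, 1 ≤ A → ∃ c₁ > 0, c₁ ≤ 1 ∧ ∀ θ > 0, ∃ σ₀ > 0, ∀ σ, 0 < σ → σ ≤ σ₀ → ∃ δ > 0,
    ∀ w I, IsARFlow w I A → ∀ (t : ℝ) (x : E3) (y : ℝ), Quiet w I δ t x y →
      (w t x = 0 → tbar w σ t x (y - (20 * A - 13)) ≤ 27 / 20 →
        (∀ r, r ≤ Real.exp (y + 1 / 2) → ¬Reg (w t) θ x r → ∃ z ∈ ball x r, w t z = 0 ∧
          c₁ * Real.exp (y + 1 / 2) ≤ |⟪z - x, gradient (w t) x⟫|) ∧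
        ∀ y', y' ≤ y - (20 * A - 13) - 3 → tbar w σ t x y' ≤ 6 / 5) ∧
      ∀ y', y - (20 * A - 13) - 5 ≤ y' → y' ≤ y - 1 → 5 / 4 ≤ tbar w σ t x y' →
        17 / 10 ≤ tbar w σ t x (y' + 2)

/-- the function `G = ∫_{Om} γ dy` -/
noncomputable def GG (w : ℝ → E3 → ℝ) (I : Set ℝ) (A σ θ : ℝ) (γ : ℝ → E3 → ℝ → ℝ) (t : ℝ)
    (x : E3) : ℝ :=
  ∫ y in Om w I A σ θ t x, γ t x y

/-- [CORE] the differential inequality for the separation functional -/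
def CoreStmt : Prop :=
  ∀ A : ℝ, 1 ≤ A → ∃ θ σ δ c C : ℝ, 0 < θ ∧ θ ≤ 1 / 10 ∧ 0 < σ ∧ σ ≤ 1 ∧ 0 < δ ∧ 0 < c ∧ c ≤ 1 ∧
    0 ≤ C ∧ ∀ w I, IsARFlow w I A →
      IsOpen {p : ℝ × E3 × ℝ | p.1 ∈ I ∧ p.2.2 ∈ Om w I A σ θ p.1 p.2.1} ∧
      (∀ K : Set (ℝ × E3), IsCompact K → K ⊆ I ×ˢ univ → ∃ y₀ : ℝ, ∀ p ∈ K, w p.1 p.2 = 0 →
        ∀ y ∈ Om w I A σ θ p.1 p.2, y₀ < y) ∧
      ∀ (J : Set ℝ) (γ : ℝ → E3 → ℝ → ℝ) (ψ : ℝ → E3 → ℝ) (q : ℝ × E3 → ℝ) (y₀ y₁ : ℝ),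
        IsOpen J → J ⊆ I →
        ContDiffOn ℝ 2 (fun p : ℝ × E3 × ℝ => γ p.1 p.2.1 p.2.2) (J ×ˢ univ) →
        (∀ t ∈ J, ∀ x y, 0 ≤ γ t x y) → (∀ t ∈ J, ∀ x y, y₁ ≤ y → γ t x y = 0) →
        ContDiff ℝ 2 (fun p : ℝ × E3 => ψ p.1 p.2) →
        HasCompactSupport (fun p : ℝ × E3 => ψ p.1 p.2) →
        tsupport (fun p : ℝ × E3 => ψ p.1 p.2) ⊆ J ×ˢ univ → (∀ t x, 0 ≤ ψ t x) →
        Measurable q → (∃ B, ∀ p, 0 ≤ q p ∧ q p ≤ B) →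
        (∀ p ∈ tsupport (fun p : ℝ × E3 => ψ p.1 p.2), w p.1 p.2 = 0 →
          (∀ y ∈ Om w I A σ θ p.1 p.2, y₀ < y) ∧ ∀ y, y₀ ≤ y →
            ((p.1, p.2, y) ∈ closure {p' : ℝ × E3 × ℝ | p'.1 ∈ J ∧ γ p'.1 p'.2.1 p'.2.2 ≠ 0} →
              Quiet w I δ p.1 p.2 y) ∧
            ‖gradient (fun x => γ p.1 x y) p.2‖ ^ 2 ≤ γ p.1 p.2 y * q p ∧
            deriv (γ p.1 p.2) y - c * γ p.1 p.2 y ≤ Real.exp (2 * y) * q p) →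
        Integrable (fun p : ℝ × E3 => GG w I A σ θ γ p.1 p.2 * adj w ψ p.1 p.2) (stm w I) ∧
        Integrable (fun p : ℝ × E3 => ψ p.1 p.2 *
          ∫ y in Om w I A σ θ p.1 p.2, heat w (fun t x => γ t x y) p.1 p.2) (stm w I) ∧
        0 ≤ ∫ p, (GG w I A σ θ γ p.1 p.2 * adj w ψ p.1 p.2 + ψ p.1 p.2 *
          ((∫ y in Om w I A σ θ p.1 p.2, heat w (fun t x => γ t x y) p.1 p.2) + C * q p))
            ∂(stm w I)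

/-- [WT] the weight which vanishes near the loud lattice points -/
def WeightStmt : Prop :=
  ∀ c ε : ℝ, 0 < c → 0 < ε → ∃ (Λ C : ℝ) (e : E3 → ℝ), 1 ≤ Λ ∧ 0 ≤ C ∧ Measurable e ∧
    (∀ x, 0 ≤ e x ∧ e x ≤ C) ∧ (∀ x, Λ ≤ ‖x‖ → e x = 0) ∧
    (∀ (μ : Measure E3) (A : ℝ), 0 ≤ A → AR μ A → ∀ (z : E3) (r : ℝ), 0 < r →
      ∫⁻ x, ENNReal.ofReal (e (r⁻¹ • (x - z)) / r ^ 2) ∂μ ≤ ENNReal.ofReal (ε * A)) ∧
    ∀ (F : Finset (ℤ × (Fin 3 → ℤ))) (b : ℤ × (Fin 3 → ℤ) → ℝ → ℝ) (J : Set ℝ), IsOpen J →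
      (∀ Q ∈ F, ContDiffOn ℝ 2 (b Q) J) → (∀ Q ∈ F, ∀ t ∈ J, 0 ≤ b Q t ∧ b Q t ≤ 1) →
      ∃ γ : ℝ → E3 → ℝ → ℝ,
        ContDiffOn ℝ 2 (fun p : ℝ × E3 × ℝ => γ p.1 p.2.1 p.2.2) (J ×ˢ univ) ∧
        ∀ t ∈ J, ∀ x : E3, (∀ y, 0 ≤ γ t x y ∧ γ t x y ≤ 1) ∧
          (∀ y, ∀ Q ∈ F, b Q t = 1 → ‖x - zQ Q‖ < rQ Q → y + 1 < Q.1 → Q.1 < y + 3 →
            γ t x y = 0) ∧
          (∀ y, (∀ Q ∈ F, Q.1 < y + 4 → b Q t = 0 ∨ Λ * rQ Q ≤ ‖x - zQ Q‖) → γ t x y = 1) ∧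
          ∀ a : ℝ, ∀ G : Finset (ℤ × (Fin 3 → ℤ)), G ⊆ F →
            (∀ Q ∈ F, Q.1 < a + 4 → b Q t ≠ 0 → ‖x - zQ Q‖ < Λ * rQ Q → Q ∈ G) →
            (∀ y, y ≤ a → ‖gradient (fun x => γ t x y) x‖ ^ 2
                ≤ γ t x y * ∑ Q ∈ G, e ((rQ Q)⁻¹ • (x - zQ Q)) / rQ Q ^ 2 ∧
              deriv (γ t x) y - c * γ t x y
                ≤ Real.exp (2 * y) * ∑ Q ∈ G, e ((rQ Q)⁻¹ • (x - zQ Q)) / rQ Q ^ 2) ∧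
            (∀ n : E3, ‖n‖ = 1 → ∫⁻ y in Iic a, ENNReal.ofReal
                (deriv (fun s => γ s x y) t - trT n (hs (fun x => γ t x y) x))
              ≤ ENNReal.ofReal (∑ Q ∈ G,
                (e ((rQ Q)⁻¹ • (x - zQ Q)) / rQ Q ^ 2 + C * |deriv (b Q) t|))) ∧
            ∫⁻ y in Iic a, ‖gradient (fun x => γ t x y) x‖ₑ
              ≤ ENNReal.ofReal (∑ Q ∈ G, C / rQ Q)

/-! ### Tangent flows -/

/-- [T0] compactness, slow motion, and the first properties of the limits -/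
structure Tan : Prop where
  resc_good : ∀ w a A C, IsGood w (Ioo a 0) A C → ∀ s > 0, IsGood (resc w s) (Ioo (a / s ^ 2) 0) A C
  ar_resc : ∀ (w : ℝ → E3 → ℝ) (s t : ℝ), 0 < s → ar (resc w s t) = scal (ar (w (s ^ 2 * t))) s⁻¹
  compact : ∀ w a A, a < 0 → IsARFlow w (Ioo a 0) A → ∀ s : ℕ → ℝ, (∀ i, 0 < s i) →
    Tendsto s atTop (𝓝 0) → ∃ (φ : ℕ → ℕ) (ν : Measure E3), StrictMono φ ∧ TanSeq w (s ∘ φ) ν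
  slow : ∀ w a A, a < 0 → IsARFlow w (Ioo a 0) A → ∀ s ν, TanSeq w s ν → ∀ (t : ℕ → ℝ) (t' : ℝ),
    t' < 0 → Tendsto t atTop (𝓝 t') →
    WeakTendsto (fun i => ar (resc w (s i) (t i))) (scal ν √(-t'))
  ratio : ∀ w a A, a < 0 → IsARFlow w (Ioo a 0) A → ∀ s ν, TanSeq w s ν → AR ν A
  /-- the dissipation in bounded windows tends to zero -/
  diss : ∀ w a A, a < 0 → IsARFlow w (Ioo a 0) A →
    Tendsto (fun b => ∫⁻ t in Ioo b 0, dis w 0 0 t) (𝓝[<] 0) (𝓝 0)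
  /-- all limits have the same Gaussian density -/
  dens : ∀ w a A, a < 0 → IsARFlow w (Ioo a 0) A → ∀ s ν s' ν', TanSeq w s ν → TanSeq w s' ν' →
    gd ν 0 1 = gd ν' 0 1
  /-- Gaussian integrals pass to the limit, locally uniformly -/
  gd_lim : ∀ (μ : ℕ → Measure E3) (ν : Measure E3) (A : ℝ), (∀ᶠ i in atTop, AR (μ i) A) → AR ν A →
    WeakTendsto μ ν → ∀ R r₁ r₂ ε : ℝ, 0 < r₁ → 0 < ε → ∀ᶠ i in atTop, ∀ x : E3, ‖x‖ ≤ R →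
      ∀ r ∈ Icc r₁ r₂, |gd (μ i) x r - gd ν x r| ≤ ε ∧ |mk (μ i) x r - mk ν x r| ≤ ε
  near_lim : ∀ (μ : ℕ → Measure E3) (ν : Measure E3) (A : ℝ), (∀ᶠ i in atTop, AR (μ i) A) →
    AR ν A → WeakTendsto μ ν → ∀ R r₁ r₂ L ε : ℝ, 0 < r₁ → 0 < ε → ∀ᶠ i in atTop, ∀ x : E3,
      ‖x‖ ≤ R → ∀ r ∈ Icc r₁ r₂, ∀ φ, IsTest L φ →
        |(∫ y, φ (r⁻¹ • (y - x)) ∂(μ i)) / r ^ 2 - (∫ y, φ (r⁻¹ • (y - x)) ∂ν) / r ^ 2| ≤ ε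

/-- [T0-flat] -/
def FlatStmt : Prop :=
  ∀ w a A C, a < 0 → IsGood w (Ioo a 0) A C → ∀ s ν, TanSeq w s ν → Flat ν

/-- [REGPT] regularity near a point which is not of higher multiplicity -/
def RegPtStmt : Prop :=
  ∀ w a A C, a < 0 → IsGood w (Ioo a 0) A C → ∀ s ν, TanSeq w s ν → ∀ t < 0, ∀ p : E3,
    (√(-t))⁻¹ • p ∉ Zset ν → ∀ η > 0, ∃ (Q : E3 ≃ₗᵢ[ℝ] E3) (p' : E3) (ρ : ℝ), 0 < ρ ∧ ρ < η ∧
      t + ρ ^ 2 < 0 ∧ ‖p' - p‖ ≤ ρ ∧ ∀ᶠ i in atTop,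
        SheetOn (resc w (s i)) (Icc (t - ρ ^ 2 / 8) (t + ρ ^ 2 / 8)) Q p' (5 * ρ) ρ η

/-- [M1] some tangent flow has multiplicity one almost everywhere -/
def M1Stmt : Prop :=
  ∀ w a A C, a < 0 → IsGood w (Ioo a 0) A C → ∃ s ν, TanSeq w s ν ∧ ν (Zset ν) = 0

/-- [DENS] multiplicity one almost everywhere implies multiplicity one everywhere -/
def DensStmt : Prop :=
  ∀ w a A C, a < 0 → IsGood w (Ioo a 0) A C → ∀ s ν, TanSeq w s ν → ν (Zset ν) = 0 → Zset ν = ∅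

/-- [LOWD] small Gaussian density implies multiplicity one -/
def LowDensStmt : Prop :=
  ∀ w a A C, a < 0 → IsGood w (Ioo a 0) A C → ∀ s ν, TanSeq w s ν → gd ν 0 1 < 9 / 5 → Zset ν = ∅

/-- [LIM] the smooth limit -/
def LimStmt : Prop :=
  ∀ w a A C, a < 0 → IsGood w (Ioo a 0) A C → ∀ s ν, TanSeq w s ν → Zset ν = ∅ →
    ∃ W, IsShr W ∧ ar W = ν ∧ LGB W C ∧
      SmoothConv (fun i => {x | resc w (s i) (-1) x = 0}) {x | W x = 0}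

/-! ### Ends -/

/-- [AL] the self-shrinkers which split off a line -/
def ALStmt : Prop :=
  ∀ W, IsShr W → ∀ e : E3, ‖e‖ = 1 → (∀ x, W x = 0 → ⟪e, gradient W x⟫ = 0) →
    {x | W x = 0} = ∅ ∨ (∃ n : E3, ‖n‖ = 1 ∧ ⟪n, e⟫ = 0 ∧ {x | W x = 0} = {x | ⟪x, n⟫ = 0}) ∨
      {x | W x = 0} = cylS e

/-- [CYLD] the Gaussian densities of the plane and of the cylinder -/
def CylDensStmt : Prop :=
  ∀ e : E3, ‖e‖ = 1 → gd ((μHE[2] : Measure E3).restrict (cylS e)) 0 1 < 9 / 5 ∧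
    1 < gd ((μHE[2] : Measure E3).restrict (cylS e)) 0 1 ∧
    ∀ (x : E3) (r h : ℝ), 0 < r → gd ((μHE[2] : Measure E3).restrict {z | ⟪z, e⟫ = h}) x r
      = Real.exp (-(⟪x, e⟫ - h) ^ 2 / (4 * r ^ 2)) ∧
      mk ((μHE[2] : Measure E3).restrict {z | ⟪z, e⟫ = h}) x r
        = max (1 - ((⟪x, e⟫ - h) / r) ^ 2) 0 ^ 4

/-- the analytic structure of the ends of `S`: finitely many cylindrical directions `D`, and in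
all other directions the surfaces `s S`, `s → 0`, are empty or graphs with uniform bounds -/
structure EndStruct (S : Set E3) (D : Finset E3) : Prop where
  unit : ∀ e ∈ D, ‖e‖ = 1
  neck : ∀ e ∈ D, ∃ ρ > 0, ∃ R : ℝ, ∀ x ∈ S, R ≤ ‖x‖ → ‖‖x‖⁻¹ • x - e‖ < ρ → ‖gT e x‖ ≤ 2
  cyl : ∀ e ∈ D, ∀ R : ℕ → ℝ, Tendsto R atTop atTop →
    SmoothConv (fun i => {x | x + R i • e ∈ S}) (cylS e)
  con : ∀ e : E3, ‖e‖ = 1 → e ∉ D → ∀ η > 0, ∃ (Q : E3 ≃ₗᵢ[ℝ] E3) (ρ s₀ : ℝ), 0 < ρ ∧ ρ < η ∧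
    0 < s₀ ∧ ((∀ s ∈ Ioo 0 s₀, ∀ (ξ : E2) (h : ℝ), ‖ξ‖ < ρ → |h| < ρ → s⁻¹ • pt Q e ξ h ∉ S) ∨
      ∃ u : ℝ → E2 → ℝ, (∀ s ∈ Ioo 0 s₀, IsGraph {x | s⁻¹ • x ∈ S} Q e ρ ρ (u s) ∧
        ContDiffOn ℝ ∞ (u s) (ball 0 ρ) ∧
        ∀ ξ ∈ ball (0 : E2) ρ, |u s ξ| ≤ η * ρ ∧ ‖gradient (u s) ξ‖ ≤ η) ∧
        ContDiffOn ℝ ∞ (u 0) (ball 0 ρ) ∧ ∀ k : ℕ, ∃ C : ℝ, ∀ s ∈ Ioo 0 s₀, ∀ ξ ∈ ball (0 : E2) ρ,
          ‖iteratedFDeriv ℝ k (u s) ξ - iteratedFDeriv ℝ k (u 0) ξ‖ ≤ C * s ^ 2)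

/-- [ENDS] -/
def EndsStmt : Prop :=
  ∀ W A C, IsShr W → 1 ≤ A → 1 ≤ C → AR (ar W) A → LGB W C → ∃ D, EndStruct {x | W x = 0} D

/-- [TUBE] -/
def TubeStmt : Prop :=
  ∀ W D, IsShr W → EndStruct {x | W x = 0} D → ∃ W' δ C, IsShr W' ∧
    IsTubeShrinker {x | W x = 0} W' δ C

/-- [U1] a smooth compact flow, extended by zero, is an integral Brakke flow -/
def BrakkeStmt : Prop :=
  ∀ w I A, IsARFlow w I A → ∀ a T : ℝ, a < T → Ico a T ⊆ I →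
    (∀ b < T, IsCompact {p : ℝ × E3 | p.1 ∈ Icc a b ∧ w p.1 p.2 = 0}) →
    Vale.Agent.P218.IsIntegralBrakkeFlow 2 fun t =>
      if t < T - a then (μH[(2 : ℕ)] : Measure E3).restrict {x | w (a + t) x = 0} else 0

end Vale.Agent.P218UA
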